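import Vale.Agent.P073Z.Sk1

/-!
# Products, norms, scalings and the general shell
-/

open Set Metric Topology Filter

namespace P073.Sh

variable {E F E' F' : Type*} [NormedAddCommGroup E] [NormedSpace ℝ E]
  [NormedAddCommGroup F] [NormedSpace ℝ F] [NormedAddCommGroup E'] [NormedSpace ℝ E']
  [NormedAddCommGroup F'] [NormedSpace ℝ F']

theorem conicalSet_prod {X : Set E} {Y : Set F} (hX : ConicalSet X) (hY : ConicalSet Y) :
    ConicalSet (X ×ˢ Y) := by
  rintro ⟨x, y⟩ ⟨hx, hy⟩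
  obtain ⟨r, hr, h1⟩ := hX x hx
  obtain ⟨s, hs, h2⟩ := hY y hy
  refine ⟨min r s, lt_min hr hs, fun v hv hxv t ht => ⟨?_, ?_⟩⟩
  · exact h1 v.1 ((norm_fst_le v).trans (hv.trans (min_le_left _ _))) hxv.1 t ht
  · exact h2 v.2 ((norm_snd_le v).trans (hv.trans (min_le_right _ _))) hxv.2 t ht

theorem conicalOn_fst {Z : Set (E × F)} (hZ : ConicalSet Z) : ConicalOn (fun z => z.1) Z :=
  conicalOn_linear (LinearMap.fst ℝ E F) hZ

theorem conicalOn_snd {Z : Set (E × F)} (hZ : ConicalSet Z) : ConicalOn (fun z => z.2) Z :=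
  conicalOn_linear (LinearMap.snd ℝ E F) hZ

/-- the product of two conical homeomorphisms -/
def prod {X : Set E} {Y : Set F} {X' : Set E'} {Y' : Set F'} (φ : ConHomeo X X')
    (ψ : ConHomeo Y Y') : ConHomeo (X ×ˢ Y) (X' ×ˢ Y') where
  toFun z := (φ.toFun z.1, ψ.toFun z.2)
  invFun z := (φ.invFun z.1, ψ.invFun z.2)
  mapsTo := fun _ hz => ⟨φ.mapsTo hz.1, ψ.mapsTo hz.2⟩
  mapsTo_inv := fun _ hz => ⟨φ.mapsTo_inv hz.1, ψ.mapsTo_inv hz.2⟩
  left_inv := fun _ hz => Prod.ext (φ.left_inv hz.1) (ψ.left_inv hz.2)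
  right_inv := fun _ hz => Prod.ext (φ.right_inv hz.1) (ψ.right_inv hz.2)
  cont := (φ.cont.comp continuousOn_fst fun _ hz => hz.1).prodMk
    (ψ.cont.comp continuousOn_snd fun _ hz => hz.2)
  cont_inv := (φ.cont_inv.comp continuousOn_fst fun _ hz => hz.1).prodMk
    (ψ.cont_inv.comp continuousOn_snd fun _ hz => hz.2)
  conical := by
    have hc := conicalSet_prod φ.conicalSet_left ψ.conicalSet_left
    exact (φ.conical.comp (conicalOn_fst hc) (fun _ hz => hz.1) continuousOn_fst).prodMk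
      (ψ.conical.comp (conicalOn_snd hc) (fun _ hz => hz.2) continuousOn_snd)

theorem exists_ofCompact {X : Set E} {Y : Set F} (hX : IsCompact X) (f : E → F)
    (hf : ContinuousOn f X) (hinj : InjOn f X) (hc : ConicalOn f X) (hY : f '' X = Y) :
    ∃ Q : ConHomeo X Y, Q.toFun = f :=
  ⟨ConHomeo.ofCompact hX f hf hinj hc hY, ConHomeo.ofCompact_toFun _ _ _ _ _ _⟩

theorem conicalOn_abs {X : Set E} {a : E → ℝ} (ha : ConicalOn a X) (hc : ContinuousOn a X) :
    ConicalOn (fun x => |a x|) X :=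
  (ha.rmax ha.neg hc hc.neg).congr fun _ _ => abs_eq_max_neg

theorem conicalSet_univ : ConicalSet (univ : Set E) := IsOpen.conicalSet isOpen_univ

theorem conicalOn_proj {ι : Type*} [Fintype ι] (i : ι) :
    ConicalOn (fun x : ι → ℝ => x i) univ :=
  conicalOn_linear (LinearMap.proj (R := ℝ) (φ := fun _ : ι => ℝ) i) conicalSet_univ

/-- the sup norm is conical -/
theorem conicalOn_norm_pi {ι : Type*} [Fintype ι] :
    ConicalOn (fun x : ι → ℝ => ‖x‖) univ := by
  classical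
  have key : ∀ s : Finset ι, ∃ g : (ι → ℝ) → ℝ, Continuous g ∧ ConicalOn g univ ∧
      ∀ x r, g x ≤ r ↔ 0 ≤ r ∧ ∀ i ∈ s, |x i| ≤ r := by
    intro s
    induction s using Finset.induction_on with
    | empty => exact ⟨fun _ => 0, continuous_const, conicalOn_const _ conicalSet_univ, by simp⟩
    | insert i s hi ih =>
      obtain ⟨g, h1, h2, h3⟩ := ih
      have h4 : Continuous fun x : ι → ℝ => x i := continuous_apply i
      refine ⟨fun x => max (g x) |x i|, h1.max h4.abs, ?_, fun x r => ?_⟩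
      · exact h2.rmax (conicalOn_abs (conicalOn_proj i)
          h4.continuousOn) h1.continuousOn h4.abs.continuousOn
      · rw [max_le_iff, h3, Finset.forall_mem_insert]
        tauto
  obtain ⟨g, -, h2, h3⟩ := key Finset.univ
  refine h2.congr fun x _ => ?_
  refine eq_of_forall_ge_iff fun r => ?_
  rw [h3]
  constructor
  · intro h
    exact ⟨(norm_nonneg x).trans h, fun i _ => (norm_le_pi_norm x i).trans h⟩
  · intro h
    exact (pi_norm_le_iff_of_nonneg h.1).2 fun i => h.2 i (Finset.mem_univ i)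

/-- the sup norm of the plane is conical -/
theorem conicalOn_norm_prod : ConicalOn (fun z : ℝ × ℝ => ‖z‖) univ :=
  ((conicalOn_abs (conicalOn_fst conicalSet_univ) continuousOn_fst).rmax
    (conicalOn_abs (conicalOn_snd conicalSet_univ) continuousOn_snd)
    continuous_fst.abs.continuousOn continuous_snd.abs.continuousOn).congr fun _ _ => rfl

/-- scaling -/
noncomputable def scale {c : ℝ} (hc : c ≠ 0) {X Y : Set E} (hX : ConicalSet X)
    (h1 : ∀ x ∈ X, c • x ∈ Y) (h2 : ∀ y ∈ Y, c⁻¹ • y ∈ X) : ConHomeo X Y where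
  toFun x := c • x
  invFun y := c⁻¹ • y
  mapsTo := h1
  mapsTo_inv := h2
  left_inv := fun x _ => inv_smul_smul₀ hc x
  right_inv := fun y _ => smul_inv_smul₀ hc y
  cont := (continuous_const_smul c).continuousOn
  cont_inv := (continuous_const_smul c⁻¹).continuousOn
  conical := (conicalOn_id hX).const_smul c

/-- scaling of the unit cube -/
noncomputable def scaleBall (n : ℕ) {c : ℝ} (hc : 0 < c) :
    ConHomeo (closedBall (0 : Fin n → ℝ) 1) (closedBall (0 : Fin n → ℝ) c) :=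
  scale hc.ne' (locCone_closedBall_pi n 1).conicalSet
    (fun x hx => by
      rw [mem_closedBall_zero_iff] at hx ⊢
      rw [norm_smul, Real.norm_of_nonneg hc.le]
      nlinarith)
    (fun y hy => by
      rw [mem_closedBall_zero_iff] at hy ⊢
      rw [norm_smul, Real.norm_of_nonneg (inv_nonneg.2 hc.le), inv_mul_le_iff₀ hc, mul_one]
      exact hy)

theorem scaleBall_apply (n : ℕ) {c : ℝ} (hc : 0 < c) (x : Fin n → ℝ) :
    (scaleBall n hc).toFun x = c • x := rfl

theorem image_smul_sphere {c : ℝ} (hc : 0 < c) :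
    (fun x : E => c • x) '' sphere 0 1 = sphere 0 c := by
  ext y
  constructor
  · rintro ⟨x, hx, rfl⟩
    rw [mem_sphere_zero_iff_norm] at hx ⊢
    rw [norm_smul, hx, mul_one, Real.norm_of_nonneg hc.le]
  · intro hy
    rw [mem_sphere_zero_iff_norm] at hy
    refine ⟨c⁻¹ • y, ?_, smul_inv_smul₀ hc.ne' y⟩
    rw [mem_sphere_zero_iff_norm, norm_smul, hy, Real.norm_of_nonneg (inv_nonneg.2 hc.le),
      inv_mul_cancel₀ hc.ne']

theorem conBall_unit (n : ℕ) : ConBall n (closedBall (0 : Fin n → ℝ) 1) (sphere 0 1) :=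
  ⟨sphere_subset_closedBall, ConHomeo.refl (locCone_closedBall_pi n 1).conicalSet, image_id' _⟩

/-- cubes are balls -/
theorem conBall_cube (n : ℕ) {c : ℝ} (hc : 0 < c) :
    ConBall n (closedBall (0 : Fin n → ℝ) c) (sphere 0 c) := by
  have h := (conBall_unit n).image (scaleBall n hc) Subset.rfl
  rw [ConHomeo.image_eq] at h
  rwa [← image_smul_sphere hc]

/-! ### the general shell -/

/-- the coordinate function of the shell -/
noncomputable def sq (a b t s : ℝ) : ℝ := b * t - max (min ((b - a) * t) (b - s)) (-(b - s))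

variable {a b s t : ℝ}

theorem sq_neg (hs : s ≤ b) (t : ℝ) : sq a b (-t) s = -sq a b t s := by
  unfold sq
  rcases le_total ((b - a) * t) (b - s) with h | h <;>
    rcases le_total ((b - a) * t) (-(b - s)) with h' | h' <;>
    simp only [mul_neg, max_def, min_def] <;> split_ifs <;> linarith

theorem sq_top (a b t : ℝ) : sq a b t b = b * t := by
  unfold sq
  rw [sub_self, neg_zero, max_eq_right (min_le_right _ _), sub_zero]

theorem sq_bot (hab : a ≤ b) (ht : |t| ≤ 1) : sq a b t a = a * t := by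
  unfold sq
  obtain ⟨h1, h2⟩ := abs_le.1 ht
  rw [min_eq_left (by nlinarith), max_eq_left (by nlinarith)]
  ring

theorem sq_one (h1 : a ≤ s) (h2 : s ≤ b) : sq a b 1 s = s := by
  unfold sq
  rw [min_eq_right (by linarith), max_eq_left (by linarith)]
  ring

theorem sq_strictMono (ha : 0 < a) (hab : a ≤ b) (s : ℝ) : StrictMono fun t => sq a b t s := by
  intro t t' h
  have h1 : (b - a) * t ≤ (b - a) * t' := mul_le_mul_of_nonneg_left h.le (sub_nonneg.2 hab)
  have h2 : a * t < a * t' := mul_lt_mul_of_pos_left h ha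
  have h3 : max (min ((b - a) * t') (b - s)) (-(b - s)) - max (min ((b - a) * t) (b - s)) (-(b - s))
      ≤ (b - a) * t' - (b - a) * t := by
    simp only [max_def, min_def]
    split_ifs <;> linarith
  unfold sq
  nlinarith

theorem continuous_sq (a b : ℝ) : Continuous fun p : ℝ × ℝ => sq a b p.1 p.2 := by
  unfold sq
  fun_prop

theorem conicalOn_sq (a b : ℝ) : ConicalOn (fun p : ℝ × ℝ => sq a b p.1 p.2) univ := by
  have h1 : ConicalOn (fun p : ℝ × ℝ => p.1) univ := conicalOn_fst conicalSet_univ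
  have h2 : ConicalOn (fun p : ℝ × ℝ => b - p.2) univ :=
    (conicalOn_const b conicalSet_univ).sub (conicalOn_snd conicalSet_univ)
  exact (h1.const_smul b).sub ((((h1.const_smul (b - a)).rmin h2 (by fun_prop)
    (by fun_prop)).rmax h2.neg (by fun_prop) (by fun_prop)))

theorem abs_sq_le (ha : 0 < a) (h1 : a ≤ s) (h2 : s ≤ b) (ht : |t| ≤ 1) : |sq a b t s| ≤ s := by
  have hm := (sq_strictMono ha (h1.trans h2) s).monotone
  obtain ⟨k1, k2⟩ := abs_le.1 ht
  have k3 : sq a b (-1) s ≤ sq a b t s := hm k1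
  have k4 : sq a b t s ≤ sq a b 1 s := hm k2
  rw [sq_neg h2, sq_one h1 h2] at k3
  rw [sq_one h1 h2] at k4
  exact abs_le.2 ⟨k3, k4⟩

theorem abs_sq_eq_iff (ha : 0 < a) (h1 : a ≤ s) (h2 : s ≤ b) : |sq a b t s| = s ↔ |t| = 1 := by
  have hm := (sq_strictMono ha (h1.trans h2) s).injective
  rw [abs_eq (ha.le.trans h1), abs_eq zero_le_one]
  have k1 : sq a b 1 s = s := sq_one h1 h2
  have k2 : sq a b (-1) s = -s := by rw [sq_neg h2, k1]
  refine or_congr ⟨fun h => hm (h.trans k1.symm), fun h => h ▸ k1⟩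
    ⟨fun h => hm (h.trans k2.symm), fun h => h ▸ k2⟩

theorem exists_sq_eq (h1 : a ≤ s) (h2 : s ≤ b) {y : ℝ} (hy : |y| ≤ s) :
    ∃ t, |t| ≤ 1 ∧ sq a b t s = y := by
  have hc : Continuous fun t => sq a b t s :=
    (continuous_sq a b).comp (f := fun t : ℝ => (t, s)) (by fun_prop)
  have k1 : sq a b 1 s = s := sq_one h1 h2
  have k2 : sq a b (-1) s = -s := by rw [sq_neg h2, k1]
  obtain ⟨t, ht, h⟩ := intermediate_value_Icc (show (-1 : ℝ) ≤ 1 by norm_num) hc.continuousOn
    (show y ∈ Icc (sq a b (-1) s) (sq a b 1 s) by rw [k1, k2]; exact abs_le.1 hy)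
  exact ⟨t, abs_le.2 ht, h⟩

theorem norm_eq_iff {ι : Type*} [Fintype ι] {x : ι → ℝ} {r : ℝ} (hr : 0 < r) :
    ‖x‖ = r ↔ (∀ i, |x i| ≤ r) ∧ ∃ i, |x i| = r := by
  constructor
  · intro h
    refine ⟨fun i => (norm_le_pi_norm x i).trans h.le, ?_⟩
    by_contra h1
    push Not at h1
    have h2 : ‖x‖ < r := (pi_norm_lt_iff hr).2 fun i =>
      lt_of_le_of_ne ((norm_le_pi_norm x i).trans h.le) (h1 i)
    exact h2.ne h
  · rintro ⟨h1, i, h2⟩
    exact le_antisymm ((pi_norm_le_iff_of_nonneg hr.le).2 h1) (h2 ▸ norm_le_pi_norm x i)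

/-- the map of the shell -/
noncomputable def shellFun {n : ℕ} (a b : ℝ) (p : (Fin n → ℝ) × ℝ) : Fin n → ℝ :=
  fun i => sq a b (p.1 i) p.2

theorem norm_shellFun {n : ℕ} (ha : 0 < a) {x : Fin n → ℝ} (hx : x ∈ sphere (0 : Fin n → ℝ) 1)
    (hs : s ∈ Icc a b) : ‖shellFun a b (x, s)‖ = s := by
  rw [mem_sphere_zero_iff_norm, norm_eq_iff one_pos] at hx
  obtain ⟨h1, i, h2⟩ := hx
  exact (norm_eq_iff (ha.trans_le hs.1)).2 ⟨fun j => abs_sq_le ha hs.1 hs.2 (h1 j), i,
    (abs_sq_eq_iff ha hs.1 hs.2).2 h2⟩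

theorem continuous_shellFun (n : ℕ) (a b : ℝ) : Continuous (shellFun (n := n) a b) :=
  continuous_pi fun i => (continuous_sq a b).comp
    (f := fun p : (Fin n → ℝ) × ℝ => (p.1 i, p.2)) (by fun_prop)

theorem conicalOn_shellFun (n : ℕ) (a b : ℝ) : ConicalOn (shellFun (n := n) a b) univ := by
  intro p hp
  refine conicalWithinAt_pi (conicalSet_univ p hp) fun i => ?_
  have h1 : ConicalOn (fun p : (Fin n → ℝ) × ℝ => (p.1 i, p.2)) univ :=
    (conicalOn_linear ((LinearMap.proj i).comp (LinearMap.fst ℝ (Fin n → ℝ) ℝ))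
      conicalSet_univ).prodMk (conicalOn_snd conicalSet_univ)
  exact (conicalOn_sq a b).comp h1 (mapsTo_univ _ _) (by fun_prop) p hp

/-- **the general shell** -/
theorem exists_shell (n : ℕ) (ha : 0 < a) (hab : a ≤ b) :
    ∃ Q : ConHomeo (sphere (0 : Fin n → ℝ) 1 ×ˢ Icc a b) {x : Fin n → ℝ | a ≤ ‖x‖ ∧ ‖x‖ ≤ b},
      ∀ x ∈ sphere (0 : Fin n → ℝ) 1, Q.toFun (x, b) = b • x ∧ Q.toFun (x, a) = a • x ∧
        ∀ s ∈ Icc a b, ‖Q.toFun (x, s)‖ = s := by
  have hc : ConicalSet (sphere (0 : Fin n → ℝ) 1 ×ˢ Icc a b) :=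
    conicalSet_prod (conicalSet_sphere_pi n) (Convex.conicalSet (convex_Icc a b))
  have hi : InjOn (shellFun a b) (sphere (0 : Fin n → ℝ) 1 ×ˢ Icc a b) := by
    rintro ⟨x, s⟩ ⟨hx, hs⟩ ⟨x', s'⟩ ⟨hx', hs'⟩ h
    have h1 : s = s' := (norm_shellFun (s := s) ha hx hs).symm.trans
      ((congrArg norm h).trans (norm_shellFun (s := s') ha hx' hs'))
    subst h1
    refine Prod.ext (funext fun i => ?_) rfl
    exact (sq_strictMono ha hab s).injective (congrFun h i)
  have him : shellFun a b '' (sphere (0 : Fin n → ℝ) 1 ×ˢ Icc a b) =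
      {x : Fin n → ℝ | a ≤ ‖x‖ ∧ ‖x‖ ≤ b} := by
    ext y
    constructor
    · rintro ⟨⟨x, s⟩, ⟨hx, hs⟩, rfl⟩
      change a ≤ _ ∧ _ ≤ b
      rw [norm_shellFun ha hx hs]
      exact hs
    · intro hy
      have h0 : a ≤ ‖y‖ ∧ ‖y‖ ≤ b := hy
      obtain ⟨h1, i, h2⟩ := (norm_eq_iff (x := y) (ha.trans_le h0.1)).1 rfl
      choose x hx hxy using fun j => exists_sq_eq h0.1 h0.2 (h1 j)
      refine ⟨(x, ‖y‖), ⟨?_, h0⟩, funext hxy⟩
      rw [mem_sphere_zero_iff_norm, norm_eq_iff one_pos]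
      exact ⟨hx, i, (abs_sq_eq_iff ha h0.1 h0.2).1 (by rw [hxy, h2])⟩
  obtain ⟨Q, hQ⟩ := exists_ofCompact ((isCompact_sphere _ _).prod isCompact_Icc) (shellFun a b)
    (continuous_shellFun n a b).continuousOn hi
    ((conicalOn_shellFun n a b).mono hc (subset_univ _)) him
  refine ⟨Q, fun x hx => ?_⟩
  rw [hQ]
  refine ⟨funext fun i => sq_top a b _, funext fun i => sq_bot hab ?_,
    fun s hs => norm_shellFun ha hx hs⟩
  rw [mem_sphere_zero_iff_norm] at hx
  exact (norm_le_pi_norm x i).trans hx.le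

end P073.Sh
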