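import Vale.Agent.P073Z.SHELL

/-!
# The punctured ball with the dyadic law
-/

open Set Metric Topology Filter

namespace P073.Sh

theorem sq_smul {c : ℝ} (hc : 0 ≤ c) (a b t s : ℝ) :
    sq (c * a) (c * b) t (c * s) = c * sq a b t s := by
  unfold sq
  rw [mul_sub c (b * t), mul_max_of_nonneg _ _ hc, mul_min_of_nonneg _ _ hc]
  ring_nf

theorem shellFun_smul {n : ℕ} {c : ℝ} (hc : 0 ≤ c) (a b : ℝ) (x : Fin n → ℝ) (s : ℝ) :
    shellFun (c * a) (c * b) (x, c * s) = c • shellFun a b (x, s) :=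
  funext fun i => sq_smul hc a b (x i) s

/-- **the general shell** -/
theorem exists_shell_fun {a b : ℝ} (n : ℕ) (ha : 0 < a) (hab : a ≤ b) :
    ∃ Q : ConHomeo (sphere (0 : Fin n → ℝ) 1 ×ˢ Icc a b) {x : Fin n → ℝ | a ≤ ‖x‖ ∧ ‖x‖ ≤ b},
      Q.toFun = shellFun a b ∧
      ∀ x ∈ sphere (0 : Fin n → ℝ) 1, Q.toFun (x, b) = b • x ∧ Q.toFun (x, a) = a • x ∧
        ∀ s ∈ Icc a b, ‖Q.toFun (x, s)‖ = s := by
  have hc : ConicalSet (sphere (0 : Fin n → ℝ) 1 ×ˢ Icc a b) :=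
    conicalSet_prod (conicalSet_sphere_pi n) (Convex.conicalSet (convex_Icc a b))
  have hi : InjOn (shellFun a b) (sphere (0 : Fin n → ℝ) 1 ×ˢ Icc a b) := by
    rintro ⟨x, s⟩ ⟨hx, hs⟩ ⟨x', s'⟩ ⟨hx', hs'⟩ h
    have h1 : s = s' := (norm_shellFun (s := s) ha hx hs).symm.trans
      ((congrArg norm h).trans (norm_shellFun (s := s') ha hx' hs'))
    subst h1
    refine Prod.ext (funext fun i => ?_) rfl
    exact (sq_strictMono ha hab s).injective (congrFun h i)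
  have him : shellFun a b '' (sphere (0 : Fin n → ℝ) 1 ×ˢ Icc a b) =
      {x : Fin n → ℝ | a ≤ ‖x‖ ∧ ‖x‖ ≤ b} := by
    ext y
    constructor
    · rintro ⟨⟨x, s⟩, ⟨hx, hs⟩, rfl⟩
      change a ≤ _ ∧ _ ≤ b
      rw [norm_shellFun ha hx hs]
      exact hs
    · intro hy
      have h0 : a ≤ ‖y‖ ∧ ‖y‖ ≤ b := hy
      obtain ⟨h1, i, h2⟩ := (norm_eq_iff (x := y) (ha.trans_le h0.1)).1 rfl
      choose x hx hxy using fun j => exists_sq_eq h0.1 h0.2 (h1 j)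
      refine ⟨(x, ‖y‖), ⟨?_, h0⟩, funext hxy⟩
      rw [mem_sphere_zero_iff_norm, norm_eq_iff one_pos]
      exact ⟨hx, i, (abs_sq_eq_iff ha h0.1 h0.2).1 (by rw [hxy, h2])⟩
  obtain ⟨Q, hQ⟩ := exists_ofCompact ((isCompact_sphere _ _).prod isCompact_Icc) (shellFun a b)
    (continuous_shellFun n a b).continuousOn hi
    ((conicalOn_shellFun n a b).mono hc (subset_univ _)) him
  refine ⟨Q, hQ, fun x hx => ?_⟩
  rw [hQ]
  refine ⟨funext fun i => sq_top a b _, funext fun i => sq_bot hab ?_,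
    fun s hs => norm_shellFun ha hx hs⟩
  rw [mem_sphere_zero_iff_norm] at hx
  exact (norm_le_pi_norm x i).trans hx.le

/-- the punctured ball, with the dyadic law -/
theorem punct_dyadic (n : ℕ) : ∃ R : ConHomeo (sphere (0 : Fin n → ℝ) 1 ×ˢ Ioc (0 : ℝ) 1)
    (closedBall (0 : Fin n → ℝ) 1 \ {0}),
    (∀ x ∈ sphere (0 : Fin n → ℝ) 1, R.toFun (x, 1) = x ∧ ∀ s ∈ Ioc (0 : ℝ) 1,
      ‖R.toFun (x, s)‖ = s ∧ R.toFun (x, s / 2) = (1 / 2 : ℝ) • R.toFun (x, s)) ∧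
    ∀ k : ℕ, EqOn R.toFun (shellFun ((1 / 2) ^ (k + 1)) ((1 / 2) ^ k))
      (sphere (0 : Fin n → ℝ) 1 ×ˢ Icc ((1 / 2 : ℝ) ^ (k + 1)) ((1 / 2) ^ k)) := by
  have hle : ∀ k : ℕ, (1 / 2 : ℝ) ^ (k + 1) ≤ (1 / 2) ^ k := fun k =>
    pow_le_pow_of_le_one (by norm_num) (by norm_num) (Nat.le_succ k)
  choose Q hQf hQ using fun k : ℕ => exists_shell_fun n (a := (1 / 2) ^ (k + 1)) (b := (1 / 2) ^ k)
    (by positivity) (hle k)
  have hlt : ∀ i j, i < j → ∀ z ∈ (sphere (0 : Fin n → ℝ) 1 ×ˢ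
      Icc ((1 / 2 : ℝ) ^ (i + 1)) ((1 / 2) ^ i)) ∩ (sphere (0 : Fin n → ℝ) 1 ×ˢ
      Icc ((1 / 2 : ℝ) ^ (j + 1)) ((1 / 2) ^ j)), (Q i).toFun z = (Q j).toFun z := by
    rintro i j h ⟨x, s⟩ ⟨h1, h2⟩
    obtain ⟨h3, h4⟩ := dyadic_lt h h1.2 h2.2
    have h5 : (Q i).toFun (x, s) = s • x := by
      have h3' : s = (1 / 2) ^ (i + 1) := h3
      rw [h3']
      exact (hQ i x h1.1).2.1
    have h6 : (Q j).toFun (x, s) = s • x := by
      have h4' : s = (1 / 2) ^ j := h4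
      rw [h4']
      exact (hQ j x h1.1).1
    rw [h5, h6]
  have hX : RelLF fun k : ℕ => sphere (0 : Fin n → ℝ) 1 ×ˢ
      Icc ((1 / 2 : ℝ) ^ (k + 1)) ((1 / 2) ^ k) :=
    relLF_dyadic continuous_snd (fun k => isClosed_sphere.prod isClosed_Icc) fun k x hx => hx.2
  have hY : RelLF fun k : ℕ =>
      {x : Fin n → ℝ | (1 / 2 : ℝ) ^ (k + 1) ≤ ‖x‖ ∧ ‖x‖ ≤ (1 / 2) ^ k} :=
    relLF_dyadic continuous_norm
      (fun k => (isClosed_le continuous_const continuous_norm).inter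
        (isClosed_le continuous_norm continuous_const)) fun k x hx => hx
  obtain ⟨Φ, hΦ⟩ := ConHomeo.exists_glue_family hX hY Q
    (fun i j z hz => by
      rcases lt_trichotomy i j with h | rfl | h
      · exact hlt i j h z hz
      · rfl
      · exact (hlt j i h z ⟨hz.2, hz.1⟩).symm)
    (fun i j y hy => by
      obtain ⟨z, hz, rfl⟩ : y ∈ (Q i).toFun '' _ := by
        rw [(Q i).image_eq]
        exact hy.1
      refine ⟨z, ⟨hz, hz.1, ?_⟩, rfl⟩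
      rw [← (hQ i z.1 hz.1).2.2 z.2 hz.2]
      exact hy.2)
  have e1 : (⋃ k : ℕ, sphere (0 : Fin n → ℝ) 1 ×ˢ Icc ((1 / 2 : ℝ) ^ (k + 1)) ((1 / 2) ^ k)) =
      sphere (0 : Fin n → ℝ) 1 ×ˢ Ioc (0 : ℝ) 1 := by
    ext z
    rw [mem_iUnion]
    constructor
    · rintro ⟨k, hk⟩
      exact ⟨hk.1, dyadic_sub k hk.2⟩
    · intro hz
      obtain ⟨k, hk⟩ := exists_dyadic hz.2
      exact ⟨k, hz.1, hk⟩
  have e2 : (⋃ k : ℕ, {x : Fin n → ℝ | (1 / 2 : ℝ) ^ (k + 1) ≤ ‖x‖ ∧ ‖x‖ ≤ (1 / 2) ^ k}) =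
      closedBall (0 : Fin n → ℝ) 1 \ {0} := by
    ext z
    rw [mem_iUnion, Set.mem_sdiff, mem_closedBall_zero_iff, mem_singleton_iff, ← ne_eq,
      ← norm_pos_iff]
    constructor
    · rintro ⟨k, hk⟩
      exact (dyadic_sub k hk).symm
    · intro hz
      exact exists_dyadic hz.symm
  refine ⟨Φ.cast e1 e2, fun x hx => ⟨?_, fun s hs => ?_⟩, fun k => hQf k ▸ (hΦ k).1⟩
  · have h1 : (1 : ℝ) ∈ Icc ((1 / 2 : ℝ) ^ (0 + 1)) ((1 / 2) ^ 0) := by norm_num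
    have h3 : ∀ s : ℝ, s = (1 / 2) ^ 0 → (Q 0).toFun (x, s) = s • x := by
      rintro _ rfl
      exact (hQ 0 x hx).1
    have h2 := h3 1 (pow_zero _).symm
    rw [one_smul] at h2
    exact ((hΦ 0).1 (x := (x, 1)) ⟨hx, h1⟩).trans h2
  · obtain ⟨k, hk⟩ := exists_dyadic hs
    have h1 : Φ.toFun (x, s) = (Q k).toFun (x, s) := (hΦ k).1 ⟨hx, hk⟩
    have h2 : s / 2 ∈ Icc ((1 / 2 : ℝ) ^ (k + 1 + 1)) ((1 / 2) ^ (k + 1)) := by
      constructor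
      · rw [pow_succ _ (k + 1)]
        linarith [hk.1]
      · rw [pow_succ _ k]
        linarith [hk.2]
    have h3 : Φ.toFun (x, s / 2) = (Q (k + 1)).toFun (x, s / 2) := (hΦ (k + 1)).1 ⟨hx, h2⟩
    change ‖Φ.toFun (x, s)‖ = s ∧ Φ.toFun (x, s / 2) = (1 / 2 : ℝ) • Φ.toFun (x, s)
    rw [h1, h3]
    refine ⟨(hQ k x hx).2.2 s hk, ?_⟩
    rw [hQf, hQf]
    funext i
    have h4 := sq_smul (c := 1 / 2) (by norm_num) ((1 / 2) ^ (k + 1)) ((1 / 2) ^ k) (x i) s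
    rw [← pow_succ', ← pow_succ', show (1 / 2 : ℝ) * s = s / 2 by ring] at h4
    exact h4

end P073.Sh
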